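import Vale.Agent.P011.H424.Dbl.MFCore
import Vale.Agent.P011.H359.Frm
import Vale.Agent.P011.W.MaxF

/-!
The field `M = F(ω)` inside the centralizer of a symmetric square root, for a skew element `j`
whose square has degree `m` over the centre of the centralizer.
-/

open NumberField IsDedekindDomain Module Polynomial

set_option linter.unusedSectionVars false

namespace Vale.Agent.P011.H424.Dbl

open Vale.Agent.P011.Arith Vale.Agent.P011.Even Vale.Agent.P011.Two Vale.Agent.P011.One
open Vale.Agent.P011.Pow hiding exists_x2 nrd_near exists_numbers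
open Vale.Agent.P011.W (HasNrd)
open Vale.Agent.P011.H359

variable {k K D L K' C : Type} [Field k] [NumberField k] [Field K] [NumberField K] [StarRing K]
    [DivisionRing D] [StarRing D] [Algebra k K] [Algebra k D] [Algebra K D] [IsScalarTower k K D]
    [Field L] [NumberField L] [Algebra k L] [Field K'] [StarRing K'] [NumberField K']
    [Algebra K K'] [DivisionRing C] [StarRing C] [Algebra L K'] [Algebra L C] [Algebra K' C]
    [IsScalarTower L K' C] {d : kˣ} {s : K} {t : D} {a : kˣ} {T : L} {jC : C →+* D}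

/-- **The field generated over `k(ω)` by the square of a skew element anticommuting with `t`.** -/
theorem exists_MF {m : ℕ} (hS : Setting k K D d s)
    (hSC : Setting L K' C (inc k L d) (algebraMap K K' s)) (h : IsCent k K D L K' C t a T jC)
    (hdC : finrank K' C = m ^ 2) (ht : t ∈ Xa D a) {B : Type} [Field B] [NumberField B]
    [Algebra k B] [Algebra B K'] {I : B}
    (hBk : ∀ c : k, algebraMap B K' (algebraMap k B c) = kk k K K' c)
    (hBI : algebraMap B K' I = om K' s T)
    (hB : ∀ b : B, ∃ p u : k, b = algebraMap k B p + algebraMap k B u * I) {j : D} (hj0 : j ≠ 0)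
    (hjs : star j = -j) (hjt : j * t = -(t * j)) {γ : C} (hdj : (minpoly K' γ).natDegree = m)
    (hγ : jC γ = j * j) :
    ∃ (F : Type) (_ : Field F) (_ : NumberField F) (_ : Algebra k F) (ι : F →ₐ[k] D) (β : Fˣ)
      (M : Type) (_ : Field M) (_ : NumberField M) (_ : Algebra B M) (θ : M) (ψ : M →+* C)
      (τ : M ≃+* M) (φ : F →+* M),
      QFr ι (inc k F (a * d)) β (algebraMap K D s * t) j ∧
      (∀ b, ψ (algebraMap B M b) = algebraMap K' C (algebraMap B K' b)) ∧ ψ θ = γ ∧
      Algebra.adjoin B {θ} = ⊤ ∧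
      (∀ y, HasNrd K' m (ψ y) (algebraMap B K' (Algebra.norm B y))) ∧
      (∀ y, ψ (τ y) = star (ψ y)) ∧
      (∀ c : k, φ (algebraMap k F c) = algebraMap B M (algebraMap k B c)) ∧
      ∀ u : M, u * τ u = 1 → ∃ p0 p1 : F,
        QElt ι (inc k F (a * d)) β (algebraMap K D s * t) j p0 p1 0 0 (jC (ψ u)) ∧
        φ (2 - 2 * p0) = (1 - u) * (1 - u⁻¹) := by
  have i3 := hSC.fin
  have i4 := hSC.cen
  have hK'c : CharZero K' := charZero_of_injective_algebraMap (algebraMap K K').injective
  -- `γ` is symmetric and commutes with `j`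
  have hγs : star γ = γ := by
    apply h.inj
    rw [h.star, hγ, star_mul, hjs, neg_mul_neg]
  have hγj : jC γ * j = j * jC γ := by rw [hγ, mul_assoc]
  -- the coefficients of the minimal polynomial
  obtain ⟨Θ, τ', hΘ, hΘτ, hτK, hτT⟩ := exists_theta h hj0 hjt
  have hco : ∀ i, ∃ e : k, (minpoly K' γ).coeff i = kk k K K' e := by
    intro i
    refine fix_k hS hSC h ht hτK hτT (minpoly_star (fun c => hSC.star_alg c) hγs i)
      (minpoly_conj jC h.inj hj0 τ' (fun c => ?_) hγj i)
    rw [← hΘτ, hΘ, inv_mul_cancel_right₀ hj0]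
  -- the field over `B`
  let algB : Algebra B C := ((algebraMap K' C).comp (algebraMap B K')).toAlgebra' fun c x =>
    Algebra.commutes _ _
  have hBC : ∀ b : B, algebraMap B C b = algebraMap K' C (algebraMap B K' b) := fun b => rfl
  have tow : IsScalarTower B K' C := IsScalarTower.of_algebraMap_eq hBC
  have hfB : FiniteDimensional B K' := by
    have h1 : FiniteDimensional ℚ K' := inferInstance
    have h2 : IsScalarTower ℚ B K' := inferInstance
    exact Module.Finite.of_restrictScalars_finite ℚ B K'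
  have hfC : FiniteDimensional B C := Module.Finite.trans K' C
  obtain ⟨M, _, _, _, ψ, θ, hθ, hgen⟩ := Even.exists_gen (finBasis B C) γ
  obtain ⟨F, _, _, _, ι, β, fr, hgenF⟩ := exists_qfr_of hS ht hj0 hjs hjt
  have hψ : ∀ b, (ψ : M →+* C) (algebraMap B M b) = algebraMap K' C (algebraMap B K' b) :=
    fun b => ψ.commutes b
  have hint : IsIntegral K' γ := Algebra.IsIntegral.isIntegral γ
  obtain ⟨hi, hd, hmp⟩ := degree_eq (κ := kk k K K') hBk hint (ψ : M →+* C) hψ hθ hco
  obtain ⟨E, _, _, φE, g, hg, hgenE⟩ := exists_genF (F := K') γ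
  have hig : IsIntegral K' g := by
    rw [← isIntegral_algHom_iff φE φE.injective, hg]
    exact hint
  have hkk : ∀ c : k, jC (algebraMap K' C (kk k K K' c)) = algebraMap k D c := fun c => by
    rw [IsScalarTower.algebraMap_apply k K D]
    exact h.jK _
  have hjk : ∀ c : k, jC ((ψ : M →+* C) (algebraMap B M (algebraMap k B c))) =
      algebraMap k D c := fun c => by rw [hψ, hBk, hkk]
  have hjI : jC ((ψ : M →+* C) (algebraMap B M I)) = algebraMap K D s * t := by
    rw [hψ, hBI, om, map_mul, map_mul, h.jK, ← IsScalarTower.algebraMap_apply L K' C, h.jT]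
  obtain ⟨φ, hφ, hφβ, hφk⟩ := exists_phi (β := (β : F)) (ψ : M →+* C) jC ι hjk (by
    change jC (ψ θ) = _
    rw [hθ, hγ, fr.jj]) hgenF
  obtain ⟨τ, hτ⟩ := exists_tau (ψ : M →+* C) (fun b => by
      obtain ⟨p, u, rfl⟩ := hB b
      refine ⟨algebraMap k B p - algebraMap k B u * I, ?_⟩
      rw [hψ, hψ, hSC.star_alg, map_add, map_mul, hBk, hBk, hBI, map_sub, map_mul, hBk, hBk, hBI,
        star_add, star_mul, star_om hSC, star_kk hSC h, star_kk hSC h]
      ring_nf) (by
      change star (ψ θ) = ψ θ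
      rw [hθ, hγs]) hgen
  have hI : I * I = algebraMap k B ((a * d : kˣ) : k) := by
    apply (algebraMap B K').injective
    rw [map_mul, hBI, hBk]
    exact om_sq hS h
  have hτI : τ (algebraMap B M I) = -algebraMap B M I := by
    have h1 : (ψ : M →+* C) (τ (algebraMap B M I)) = (ψ : M →+* C) (-algebraMap B M I) := by
      rw [hτ, map_neg, hψ, hBI, hSC.star_alg, star_om hSC, map_neg]
    exact (ψ : M →+* C).injective h1
  refine ⟨F, inferInstance, inferInstance, inferInstance, ι, β, M, inferInstance, inferInstance,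
    inferInstance, θ, (ψ : M →+* C), τ, φ, fr, hψ, hθ, ?_, fun y => ?_, hτ, hφk, fun u hu => ?_⟩
  · rw [eq_top_iff]
    rintro x -
    obtain ⟨p, rfl⟩ := hgen x
    exact Polynomial.aeval_mem_adjoin_singleton B θ
  · obtain ⟨z, hz, hnz⟩ := norm_eq (ψ : M →+* C) hψ hθ hgen hi hd φE hg hig hgenE y
    have hE : finrank K' E = m := by
      obtain ⟨b, -⟩ := exists_powBasis hig hgenE
      rw [finrank_eq_card_basis b, Fintype.card_fin, ← hdj, ← hg,
        minpoly.algHom_eq φE φE.injective]
    rw [← hz, ← hnz]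
    exact W.hasNrd_norm hdC hE φE z
  · obtain ⟨p0, p1, hup⟩ := exists_rep (φ := φ) hB hφβ hφk hgen u
    obtain ⟨h1, h2, h3⟩ := unitary_rep (ψ : M →+* C) jC ι hI hφ hφk fr.sym h.star
      (τ := (τ : M →+* M)) hτ hτI hup hu
    refine ⟨p0, p1, ⟨fr, ?_, ?_⟩, h3⟩
    · have h4 : ((inc k F (a * d) : Fˣ) : F) = algebraMap k F ((a * d : kˣ) : k) := rfl
      rw [h4, ← h1]
      ring
    · rw [h2, hjI, map_zero, zero_mul, zero_mul, add_zero, add_zero]

end Vale.Agent.P011.H424.Dbl
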