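import Vale.Agent.P011.H424.Dbl.MFCoreR
import Vale.Agent.P011.H169.C2.Cent
import Vale.Agent.P011.H706.C2.HQDef
import Vale.Agent.P011.H167.LfD
import Vale.Agent.P011.H505.WangB
import Vale.Agent.P011.H63.DnD

/-!
Function fields of characteristic two: the field `M = F(I)` inside the centralizer of `t`,
`t * t + t = a`, for a symmetric element `y` with `y * t = (t + 1) * y` whose square has degree `m`
over the centre of the centralizer. Rings with involution.
-/

open Module Polynomial

set_option linter.unusedSectionVars false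

namespace Vale.Agent.P011.H424.Dbl

open Vale.Agent.P011.H738 Vale.Agent.P011.H271 Vale.Agent.P011.H305 Vale.Agent.P011.H961
open Vale.Agent.P011.H169.C2 Vale.Agent.P011.H706.C2 Vale.Agent.P011.H477.C2
open Vale.Agent.P011.W (HasNrd)

section coeff

variable {k K' C A : Type*} [Field k] [Field K'] [DivisionRing C] [Algebra K' C]
  [FiniteDimensional K' C] [Ring A] [StarRing K'] {κ : k →+* K'} {T : K'} (jC : C →+* A) {γ : C}
  {y : A}

/-- The coefficients of the minimal polynomial of the square of `y` are in the base field. -/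
theorem coeff_k2 (hfix : ∀ c : K', star c = c → ∃ p q : k, c = κ p + κ q * T)
    (hT : ∀ e : k, T ≠ κ e)
    (hinj : Function.Injective jC) (hy0 : ∀ x : A, x * y = 0 → x = 0)
    (hyk : ∀ c : k, y * jC (algebraMap K' C (κ c)) = jC (algebraMap K' C (κ c)) * y)
    (hyT : y * jC (algebraMap K' C T) = jC (algebraMap K' C (T + 1)) * y)
    (hyγ : y * jC γ = jC γ * y)
    (hs : ∀ i, star ((minpoly K' γ).coeff i) = (minpoly K' γ).coeff i) (i : ℕ) :
    ∃ e : k, (minpoly K' γ).coeff i = κ e := by
  have hint : IsIntegral K' γ := Algebra.IsIntegral.isIntegral γ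
  obtain ⟨P, hP⟩ : ∃ P, P = minpoly K' γ := ⟨_, rfl⟩
  have hPm : P.Monic := hP ▸ minpoly.monic hint
  have hmin : ∀ Q : K'[X], aeval γ Q = 0 → P ∣ Q := fun Q hQ => hP ▸ minpoly.dvd K' γ hQ
  rw [← hP] at hs ⊢
  choose p q hpq using fun i => hfix _ (hs i)
  have h1 : aeval γ P = 0 := hP ▸ minpoly.aeval K' γ
  rw [aeval_eq_sum_range] at h1
  have h4 : ∀ n, y * jC (γ ^ n) = jC (γ ^ n) * y := by
    intro n
    rw [map_pow]
    exact (Commute.pow_right hyγ n : _)
  have h2 : ∀ n, y * jC (P.coeff n • γ ^ n) =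
      jC (P.coeff n • γ ^ n + κ (q n) • γ ^ n) * y := by
    intro n
    rw [← add_smul, Algebra.smul_def, Algebra.smul_def, map_mul, map_mul, ← mul_assoc,
      mul_assoc _ _ y, ← h4, ← mul_assoc]
    congr 1
    have h5 : P.coeff n + κ (q n) = κ (p n) + κ (q n) * (T + 1) := by
      rw [hpq n]
      ring
    rw [h5, hpq n]
    simp only [map_add, map_mul, mul_add, add_mul] at hyT ⊢
    rw [hyk, ← mul_assoc, hyk, mul_assoc, hyT]
    noncomm_ring
  have h3 : ∑ n ∈ Finset.range (P.natDegree + 1), κ (q n) • γ ^ n = 0 := by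
    have h6 : jC (∑ n ∈ Finset.range (P.natDegree + 1),
        (P.coeff n • γ ^ n + κ (q n) • γ ^ n)) * y = 0 := by
      rw [map_sum, Finset.sum_mul, ← Finset.sum_congr rfl fun n _ => h2 n, ← Finset.mul_sum,
        ← map_sum, h1, map_zero, mul_zero]
    have h5 := hinj ((hy0 _ h6).trans (map_zero jC).symm)
    rwa [Finset.sum_add_distrib, h1, zero_add] at h5
  -- the polynomial of the differences vanishes
  obtain ⟨Q, hQ⟩ : ∃ Q : K'[X], Q = ∑ n ∈ Finset.range (P.natDegree + 1),
      monomial n (κ (q n)) := ⟨_, rfl⟩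
  have hQc : ∀ n, n ≤ P.natDegree → Q.coeff n = κ (q n) := by
    intro n hn
    rw [hQ, finsetSum_coeff]
    simp only [coeff_monomial]
    rw [Finset.sum_ite_eq' (Finset.range (P.natDegree + 1)) n fun n => κ (q n),
      if_pos (Finset.mem_range.mpr (Nat.lt_succ_of_le hn))]
  have hQ0 : aeval γ Q = 0 := by
    rw [hQ, map_sum, ← h3]
    refine Finset.sum_congr rfl fun n _ => ?_
    rw [aeval_monomial, Algebra.smul_def]
  have hQd : Q.natDegree ≤ P.natDegree := by
    rw [hQ]
    refine natDegree_sum_le_of_forall_le _ _ fun n hn => ?_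
    exact (natDegree_monomial_le _).trans (Nat.lt_succ_iff.mp (Finset.mem_range.mp hn))
  -- the leading coefficient
  have hlead : κ (q P.natDegree) = 0 := by
    by_contra hne
    refine hT ((1 - p P.natDegree) / q P.natDegree) ?_
    have h5 := hpq P.natDegree
    rw [hPm.coeff_natDegree] at h5
    rw [map_div₀, map_sub, map_one, eq_div_iff hne, h5]
    ring
  have hlt : Q = 0 := by
    by_contra hne
    have h5 : P.natDegree ≤ Q.natDegree := natDegree_le_of_dvd (hmin Q hQ0) hne
    have h6 : Q.natDegree = P.natDegree := le_antisymm hQd h5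
    have h7 : Q.coeff Q.natDegree ≠ 0 := by
      rw [coeff_natDegree]
      exact leadingCoeff_ne_zero.mpr hne
    rw [h6, hQc _ le_rfl] at h7
    exact h7 hlead
  by_cases hi : i ≤ P.natDegree
  · refine ⟨p i, ?_⟩
    have h5 := hQc i hi
    rw [hlt, coeff_zero] at h5
    rw [hpq i, ← h5, zero_mul, add_zero]
  · refine ⟨0, ?_⟩
    rw [coeff_eq_zero_of_natDegree_lt (not_le.mp hi), map_zero]

end coeff

variable {k K A L K' C : Type} [Field k] [GFF k] [Field K] [StarRing K]
    [Ring A] [StarRing A] [Algebra k K] [Algebra k A] [Algebra K A] [IsScalarTower k K A]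
    [StarModule K A]
    [Field L] [Algebra k L] [Field K'] [StarRing K'] [Algebra K K'] [DivisionRing C] [StarRing C]
    [Algebra L K'] [Algebra L C] [Algebra K' C] [IsScalarTower L K' C]
    {t : A} {a : k} {ϰ : K} {T : L} {jC : C →+* A}

/-- A factor `y` whose square is the image of a nonzero element of a division ring is not a zero
divisor. -/
theorem not_zero_div2 {y : A} {γ : C} (hγ0 : γ ≠ 0) (hγ : jC γ = y * y) (x : A)
    (hx : x * y = 0) : x = 0 := by
  have h1 : x * jC γ = 0 := by rw [hγ, ← mul_assoc, hx, zero_mul]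
  have h3 : jC γ * jC γ⁻¹ = 1 := by rw [← map_mul, mul_inv_cancel₀ hγ0, map_one]
  calc x = x * (jC γ * jC γ⁻¹) := by rw [h3, mul_one]
    _ = 0 := by rw [← mul_assoc, h1, zero_mul]

/-- The coefficients of the minimal polynomial of `y * y` over `K'` are in `k`. -/
theorem coeff_kk2 (hSC : SetG L K' C) (h : IsCent2 k K A L K' C t a T jC) {y : A}
    (hys : star y = y) (hyt : y * t = (t + 1) * y) {γ : C} (hγ0 : γ ≠ 0) (hγ : jC γ = y * y)
    (i : ℕ) : ∃ e : k, (minpoly K' γ).coeff i = algebraMap K K' (algebraMap k K e) := by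
  have i3 := hSC.fin
  have hnt : Nontrivial A := ⟨jC 0, jC 1, fun e => zero_ne_one (h.inj e)⟩
  have hy0 := not_zero_div2 (y := y) hγ0 hγ
  have hγs : star γ = γ := by
    apply h.inj
    rw [h.star, hγ, star_mul, hys]
  have hyγ : y * jC γ = jC γ * y := by rw [hγ, mul_assoc]
  have hkD : ∀ c : k, jC (algebraMap K' C (algebraMap K K' (algebraMap k K c))) =
      algebraMap k A c := fun c => by
    rw [h.jK, ← IsScalarTower.algebraMap_apply]
  have hkk : ∀ c : k, ((algebraMap K K').comp (algebraMap k K)) c =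
      algebraMap K K' (algebraMap k K c) := fun c => rfl
  refine coeff_k2 (κ := (algebraMap K K').comp (algebraMap k K)) (T := algebraMap L K' T) jC
    (fun c hc => ?_) (fun e he => ?_) h.inj hy0 (fun c => ?_) ?_ hyγ
    (minpoly_star (fun c => hSC.star_algebraMapD c) hγs) i
  · obtain ⟨l, rfl⟩ := (hSC.fix c).mp hc
    obtain ⟨p, q, rfl⟩ := h.repL l
    refine ⟨p, q, ?_⟩
    rw [map_add, map_mul, hkk, hkk, h.comp, h.comp]
  · have h1 := h.jTK
    rw [he, hkk, hkD] at h1
    have h3 := hyt
    rw [← h1, ← Algebra.commutes, add_mul, one_mul, left_eq_add] at h3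
    have h4 := hy0 1 (by rw [one_mul, h3])
    exact one_ne_zero h4
  · rw [hkk, hkD]
    exact (Algebra.commutes c y).symm
  · rw [map_add, map_add, map_one, map_one, h.jTK, hyt]

/-- **The minimal polynomial** of `y * y` over `K'` is the one over `k`. -/
theorem minpoly_gamma2 (hSC : SetG L K' C) (h : IsCent2 k K A L K' C t a T jC) {y : A}
    (hys : star y = y) (hyt : y * t = (t + 1) * y) {γ : C} (hγ0 : γ ≠ 0) (hγ : jC γ = y * y) :
    IsIntegral k (y * y) ∧ minpoly K' γ =
      (minpoly k (y * y)).map ((algebraMap K K').comp (algebraMap k K)) := by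
  have i3 := hSC.fin
  obtain ⟨kk, hkk⟩ : ∃ kk : k →+* K', kk = (algebraMap K K').comp (algebraMap k K) := ⟨_, rfl⟩
  have hco : ∀ i, ∃ e : k, (minpoly K' γ).coeff i = kk e := fun i => by
    rw [hkk]
    exact coeff_kk2 hSC h hys hyt hγ0 hγ i
  rw [← hkk]
  have hkD : ∀ c : k, jC (algebraMap K' C (kk c)) = algebraMap k A c := fun c => by
    rw [hkk]
    change jC (algebraMap K' C (algebraMap K K' (algebraMap k K c))) = _
    rw [h.jK, ← IsScalarTower.algebraMap_apply]
  have hint : IsIntegral K' γ := Algebra.IsIntegral.isIntegral γ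
  obtain ⟨R, hR⟩ : ∃ R : k[X], R.map kk = minpoly K' γ := by
    rw [← mem_lifts, lifts_iff_coeff_lifts]
    intro i
    obtain ⟨e, he⟩ := hco i
    exact ⟨e, he.symm⟩
  have hRm : R.Monic := by
    have h1 := minpoly.monic hint
    rw [← hR] at h1
    exact monic_of_injective kk.injective h1
  have hev : ∀ Q : k[X], jC (aeval γ (Q.map kk)) = aeval (y * y) Q := by
    intro Q
    induction Q using Polynomial.induction_on' with
    | add p q hp hq => rw [Polynomial.map_add, map_add, map_add, map_add, hp, hq]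
    | monomial n c =>
      rw [map_monomial, aeval_monomial, aeval_monomial, map_mul, hkD, map_pow, hγ]
  have hR0 : aeval (y * y) R = 0 := by rw [← hev, hR, minpoly.aeval, map_zero]
  have hik : IsIntegral k (y * y) := ⟨R, hRm, hR0⟩
  refine ⟨hik, ?_⟩
  have h1 : minpoly k (y * y) ∣ R := minpoly.dvd k _ hR0
  have h2 : minpoly K' γ ∣ (minpoly k (y * y)).map kk := by
    refine minpoly.dvd K' γ (h.inj ?_)
    rw [hev, minpoly.aeval, map_zero]
  have h3 : (minpoly k (y * y)).map kk ∣ minpoly K' γ := by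
    rw [← hR]
    exact Polynomial.map_dvd _ h1
  exact eq_of_monic_of_associated (minpoly.monic hint) ((minpoly.monic hik).map _)
    (associated_of_dvd_dvd h2 h3)

/-- **The field generated over `k(I)`, `I = ϰ + t`, by the square of a symmetric element `y` with
`y * t = (t + 1) * y`, function fields of characteristic two.** -/
theorem exists_MF2 {m : ℕ} (h2 : (2 : k) = 0) (hSC : SetG L K' C)
    (h : IsCent2 k K A L K' C t a T jC) (hdC : finrank K' C = m ^ 2) (hts : star t = t) {ν : k}
    (hϰ : ϰ + star ϰ = 1) (hν : ϰ * star ϰ = algebraMap k K ν) {B : Type} [Field B] [GFF B]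
    [Algebra k B] [Algebra B K'] {I : B}
    (hBk : ∀ c : k, algebraMap B K' (algebraMap k B c) = algebraMap K K' (algebraMap k K c))
    (hBI : algebraMap B K' I = algebraMap K K' ϰ + algebraMap L K' T)
    (hB : ∀ b : B, ∃ p u : k, b = algebraMap k B p + algebraMap k B u * I) {y : A}
    (hys : star y = y) (hyt : y * t = (t + 1) * y) {γ : C} (hγ0 : γ ≠ 0)
    (hdj : (minpoly K' γ).natDegree = m) (hγ : jC γ = y * y) :
    ∃ (F : Type) (_ : Field F) (_ : GFF F) (_ : Algebra k F) (_ : Algebra.IsAlgebraic k F)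
      (ι : F →ₐ[k] A) (β : F)
      (M : Type) (_ : Field M) (_ : GFF M) (_ : Algebra B M) (_ : Algebra.IsAlgebraic B M)
      (θ : M) (ψ : M →+* C) (τ : M ≃+* M) (φ : F →+* M),
      QFrF2 ι (algebraMap k F (a + ν)) β (algebraMap K A ϰ + t) y ∧
      (∀ x : F, ∃ p : k[X], x = aeval β p) ∧
      (∀ b, ψ (algebraMap B M b) = algebraMap K' C (algebraMap B K' b)) ∧ ψ θ = γ ∧
      (∀ x : M, ∃ p : B[X], x = aeval θ p) ∧
      IsIntegral B θ ∧ (minpoly B θ).natDegree = m ∧
      (minpoly B θ).map (algebraMap B K') = minpoly K' γ ∧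
      (∀ y, HasNrd K' m (ψ y) (algebraMap B K' (Algebra.norm B y))) ∧
      (∀ y, ψ (τ y) = star (ψ y)) ∧
      (∀ c : k, φ (algebraMap k F c) = algebraMap B M (algebraMap k B c)) ∧
      (∀ x : F, jC (ψ (φ x)) = ι x) ∧ φ β = θ ∧
      ∀ u : M, u * τ u = 1 → ∃ p0 p1 : F,
        QEltF2 ι (algebraMap k F (a + ν)) β (algebraMap K A ϰ + t) y p0 p1 0 0 (jC (ψ u)) ∧
        u = φ p0 + φ p1 * algebraMap B M I ∧ φ p1 = u + u⁻¹ := by
  have rkL := h.rkL
  have repL := h.repL
  have comp := h.comp
  have inj := h.inj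
  have hstar := h.star
  have jT := h.jT
  have jK := h.jK
  have htt := h.sq
  have hAK : ∀ c : K, star (algebraMap K A c) = algebraMap K A (star c) := fun c =>
    (algebraMap_star_comm c).symm
  have i3 := hSC.fin
  have i4 := hSC.cen
  have hnt : Nontrivial A := ⟨jC 0, jC 1, fun h => zero_ne_one (inj h)⟩
  have h2A : (2 : A) = 0 := by rw [← map_ofNat (algebraMap k A) 2, h2, map_zero]
  have h2C : (2 : C) = 0 := inj (by rw [map_ofNat, h2A, map_zero])
  -- `y` is not a zero divisor
  have hy0 := not_zero_div2 (y := y) hγ0 hγ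
  -- `γ` is symmetric and commutes with `y`
  have hγs : star γ = γ := by
    apply inj
    rw [hstar, hγ, star_mul, hys]
  have hyγ : y * jC γ = jC γ * y := by rw [hγ, mul_assoc]
  -- the images of the fields
  obtain ⟨kk, hkk⟩ : ∃ kk : k →+* K', kk = (algebraMap K K').comp (algebraMap k K) := ⟨_, rfl⟩
  have hkk' : ∀ c, kk c = algebraMap K K' (algebraMap k K c) := fun c => by rw [hkk]; rfl
  have hkD : ∀ c : k, jC (algebraMap K' C (kk c)) = algebraMap k A c := fun c => by
    rw [hkk', jK, ← IsScalarTower.algebraMap_apply]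
  have jT' : jC (algebraMap K' C (algebraMap L K' T)) = t := by
    rw [← IsScalarTower.algebraMap_apply L K' C, jT]
  have hco : ∀ i, ∃ e : k, (minpoly K' γ).coeff i = kk e := fun i => by
    rw [hkk]
    exact coeff_kk2 hSC h hys hyt hγ0 hγ i
  -- the field over `B`
  let algB : Algebra B C := ((algebraMap K' C).comp (algebraMap B K')).toAlgebra' fun c x =>
    Algebra.commutes _ _
  have hBC : ∀ b : B, algebraMap B C b = algebraMap K' C (algebraMap B K' b) := fun b => rfl
  have tow : IsScalarTower B K' C := IsScalarTower.of_algebraMap_eq hBC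
  let algkK : Algebra k K' := kk.toAlgebra
  have tow1 : IsScalarTower k L K' := IsScalarTower.of_algebraMap_eq fun c => by
    change kk c = _
    rw [hkk', comp]
  have tow2 : IsScalarTower k B K' := IsScalarTower.of_algebraMap_eq fun c => by
    change kk c = _
    rw [hkk', hBk]
  have hfkK : FiniteDimensional k K' := by
    have h1 : FiniteDimensional k L := Module.finite_of_finrank_pos (by rw [rkL]; norm_num)
    have h3 : FiniteDimensional L K' := hSC.finK
    exact Module.Finite.trans L K'
  have hfB : FiniteDimensional B K' := Module.Finite.of_restrictScalars_finite k B K'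
  have hfC : FiniteDimensional B C := Module.Finite.trans K' C
  have hinfK : Infinite K' := by
    have h1 : Infinite B := H63.DN.infinite_of_gff B
    exact Infinite.of_injective _ (algebraMap B K').injective
  obtain ⟨M, _, _, _, _, ψ, θ, hθ, hgen⟩ := H167.Lf.exists_gen (finBasis B C) γ
  -- the symmetric field
  let algkC : Algebra k C := ((algebraMap K' C).comp kk).toAlgebra' fun c x =>
    Algebra.commutes _ _
  have hkC : ∀ c : k, algebraMap k C c = algebraMap K' C (kk c) := fun c => rfl
  have tow3 : IsScalarTower k K' C := IsScalarTower.of_algebraMap_eq hkC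
  have hfkC : FiniteDimensional k C := Module.Finite.trans K' C
  obtain ⟨F, _, _, _, _, ι', β, hβ, hgenF⟩ := H167.Lf.exists_gen (finBasis k C) γ
  obtain ⟨ι, hι⟩ : ∃ ι : F →ₐ[k] A, ∀ x, ι x = jC (ι' x) := by
    refine ⟨{ jC.comp (ι' : F →+* C) with
      commutes' := fun c => ?_ }, fun x => rfl⟩
    change jC (ι' (algebraMap k F c)) = _
    rw [ι'.commutes, hkC, hkD]
  have hιs : ∀ x, star (ι' x) = ι' x := by
    intro x
    obtain ⟨p, rfl⟩ := hgenF x
    rw [← aeval_algHom_apply, hβ]
    induction p using Polynomial.induction_on' with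
    | add p q hp hq => rw [map_add, star_add, hp, hq]
    | monomial n c =>
      rw [aeval_monomial, star_mul, star_pow, hγs, hkC, hSC.star_algebraMapD, hkk', comp,
        (hSC.fix _).mpr ⟨_, rfl⟩]
      exact (Algebra.commutes _ _).symm
  have hyι : ∀ x, y * jC (ι' x) = jC (ι' x) * y := by
    intro x
    obtain ⟨p, rfl⟩ := hgenF x
    rw [← aeval_algHom_apply, hβ]
    induction p using Polynomial.induction_on' with
    | add p q hp hq => rw [map_add, map_add, mul_add, add_mul, hp, hq]
    | monomial n c =>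
      have h1 : y * jC (γ ^ n) = jC (γ ^ n) * y := by
        rw [map_pow]
        exact (Commute.pow_right hyγ n : _)
      rw [aeval_monomial, map_mul, hkC, hkD, ← mul_assoc, ← Algebra.commutes c y, mul_assoc, h1,
        mul_assoc]
  have hct : ∀ x : C, jC x * t = t * jC x := by
    intro x
    rw [← jT, ← map_mul, ← map_mul, IsScalarTower.algebraMap_apply L K' C, Algebra.commutes]
  have hcK : ∀ (c : K) (x : A), algebraMap K A c * x = x * algebraMap K A c := fun c x =>
    Algebra.commutes c x
  have hϰ2 : ϰ * ϰ = ϰ + algebraMap k K ν := by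
    have h2K : (2 : K) = 0 := by rw [← map_ofNat (algebraMap k K) 2, h2, map_zero]
    linear_combination ϰ * hϰ - hν - algebraMap k K ν * h2K
  have hβ0 : β ≠ 0 := by
    rintro rfl
    rw [map_zero] at hβ
    exact hγ0 hβ.symm
  have hII : (algebraMap K A ϰ + t) * (algebraMap K A ϰ + t) =
      algebraMap K A ϰ + t + algebraMap k A (a + ν) := by
    have h1 : algebraMap K A ϰ * algebraMap K A ϰ = algebraMap K A ϰ + algebraMap k A ν := by
      rw [← map_mul, hϰ2, map_add, ← IsScalarTower.algebraMap_apply]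
    have h3 : t * t = algebraMap k A a - t := eq_sub_of_add_eq htt
    have h4 : algebraMap K A ϰ * t + t * algebraMap K A ϰ = 0 := by
      rw [hcK, ← two_mul, h2A, zero_mul]
    have h5 : -t = t := by
      rw [neg_eq_iff_add_eq_zero, ← two_mul, h2A, zero_mul]
    calc (algebraMap K A ϰ + t) * (algebraMap K A ϰ + t)
        = algebraMap K A ϰ * algebraMap K A ϰ + (algebraMap K A ϰ * t + t * algebraMap K A ϰ) +
          t * t := by noncomm_ring
      _ = _ := by
        rw [h1, h3, h4, map_add, sub_eq_add_neg, h5]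
        abel
  have fr : QFrF2 ι (algebraMap k F (a + ν)) β (algebraMap K A ϰ + t) y := by
    refine
      { sym := fun x => ?_
        si := ?_
        sj := hys
        ii := ?_
        jj := ?_
        ji := ?_
        b0 := hβ0
        ci := fun x => ?_
        cj := fun x => ?_ }
    · rw [hι, ← hstar, hιs]
    · have h1 : star ϰ = ϰ + 1 := by
        have h2K : (2 : K) = 0 := by rw [← map_ofNat (algebraMap k K) 2, h2, map_zero]
        linear_combination hϰ - ϰ * h2K
      rw [star_add, hts, hAK, h1, map_add, map_one]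
      abel
    · rw [hII]
      congr 1
      exact (ι.commutes _).symm
    · rw [hι, hβ, hγ]
    · rw [mul_add, ← hcK, hyt, add_mul, add_mul, add_mul, one_mul]
      abel
    · rw [hι, mul_add, add_mul, hct, hcK]
    · rw [hι, hyι]
  have hψ : ∀ b, (ψ : M →+* C) (algebraMap B M b) = algebraMap K' C (algebraMap B K' b) :=
    fun b => ψ.commutes b
  have hint : IsIntegral K' γ := Algebra.IsIntegral.isIntegral γ
  have hBk' : ∀ c : k, algebraMap B K' (algebraMap k B c) = kk c := fun c => by
    rw [hBk, hkk']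
  obtain ⟨hi, hd, hmp⟩ := degree_eq (κ := kk) hBk' hint (ψ : M →+* C) hψ hθ hco
  obtain ⟨E, _, _, φE, g, hg, hgenE⟩ := exists_genF (F := K') γ
  have hig : IsIntegral K' g := by
    rw [← isIntegral_algHom_iff φE φE.injective, hg]
    exact hint
  have hjk : ∀ c : k, jC ((ψ : M →+* C) (algebraMap B M (algebraMap k B c))) =
      algebraMap k A c := fun c => by rw [hψ, hBk', hkD]
  have hjI : jC ((ψ : M →+* C) (algebraMap B M I)) = algebraMap K A ϰ + t := by
    rw [hψ, hBI, map_add, map_add, jK, jT']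
  obtain ⟨φ, hφ, hφβ, hφk⟩ := exists_phiR (β := β) (ψ : M →+* C) jC ι hjk (by
    change jC (ψ θ) = _
    rw [hθ, hι, hβ]) hgenF
  have hstarI : star (algebraMap K' C (algebraMap B K' I)) =
      algebraMap K' C (algebraMap B K' (I + 1)) := by
    apply inj
    have e1 : jC (algebraMap K' C (algebraMap K K' ϰ + algebraMap L K' T)) =
        algebraMap K A ϰ + t := by rw [map_add, map_add, jK, jT']
    rw [hstar, map_add (algebraMap B K'), hBI, map_one, map_add (algebraMap K' C) _ 1,
      map_one, map_add jC _ 1, map_one, e1]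
    exact fr.si
  have hstark : ∀ c : k, star (algebraMap K' C (kk c)) = algebraMap K' C (kk c) := fun c => by
    rw [hSC.star_algebraMapD, hkk', comp, (hSC.fix _).mpr ⟨_, rfl⟩]
  obtain ⟨τ, hτ⟩ := exists_tau (ψ : M →+* C) (fun b => by
      obtain ⟨p, u, rfl⟩ := hB b
      refine ⟨algebraMap k B p + algebraMap k B u * (I + 1), ?_⟩
      rw [hψ, hψ]
      have e1 : algebraMap K' C (algebraMap B K' (algebraMap k B p + algebraMap k B u * I)) =
          algebraMap K' C (kk p) + algebraMap K' C (kk u) *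
            algebraMap K' C (algebraMap B K' I) := by
        rw [map_add, map_mul, map_add, map_mul, hBk', hBk']
      have e2 : algebraMap K' C (algebraMap B K' (algebraMap k B p +
          algebraMap k B u * (I + 1))) =
          algebraMap K' C (kk p) + algebraMap K' C (kk u) *
            algebraMap K' C (algebraMap B K' (I + 1)) := by
        rw [map_add, map_mul, map_add (algebraMap K' C), map_mul, hBk', hBk']
      rw [e1, e2, star_add, star_mul, hstark, hstark, hstarI]
      congr 1
      exact (Algebra.commutes _ _).symm) (by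
      change star (ψ θ) = ψ θ
      rw [hθ, hγs]) hgen
  have hI : I * I = I + algebraMap k B (a + ν) := by
    apply (algebraMap B K').injective
    apply (algebraMap K' C).injective
    apply inj
    rw [map_mul, map_mul, map_mul, map_add, map_add, map_add, hBk', hkD, hBI, map_add, map_add,
      jK, jT', hII]
  have hτI : τ (algebraMap B M I) = algebraMap B M I + 1 := by
    have h1 : (ψ : M →+* C) (τ (algebraMap B M I)) = (ψ : M →+* C) (algebraMap B M I + 1) := by
      rw [hτ, map_add, hψ, map_one, hstarI, map_add, map_add, map_one, map_one]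
    exact (ψ : M →+* C).injective h1
  have h2F : (2 : F) = 0 := by rw [← map_ofNat (algebraMap k F) 2, h2, map_zero]
  refine ⟨F, inferInstance, inferInstance, inferInstance, inferInstance, ι, β, M, inferInstance,
    inferInstance, inferInstance, inferInstance, θ, (ψ : M →+* C), τ, φ, fr, hgenF, hψ, hθ, hgen,
    hi, hd.trans hdj, hmp, fun y => ?_, hτ, hφk, hφ, hφβ, fun u hu => ?_⟩
  · obtain ⟨z, hz, hnz⟩ := norm_eq (ψ : M →+* C) hψ hθ hgen hi hd φE hg hig hgenE y
    have hE : finrank K' E = m := by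
      obtain ⟨b, -⟩ := exists_powBasis hig hgenE
      rw [finrank_eq_card_basis b, Fintype.card_fin, ← hdj, ← hg,
        minpoly.algHom_eq φE φE.injective]
    rw [← hz, ← hnz]
    exact H505.Wang.hasNrd_norm hdC hE φE z
  · obtain ⟨p0, p1, hup⟩ := exists_rep (φ := φ) hB hφβ hφk hgen u
    have hsym : ∀ x, star (ι x) = ι x := fun x => by rw [hι, ← hstar, hιs]
    obtain ⟨h1, h3, h4⟩ := unitary_rep2 (ψ : M →+* C) jC ι h2F hI hφ hφk hsym hstar
      (τ := (τ : M →+* M)) hτ hτI hup hu
    refine ⟨p0, p1, ⟨fr, ?_, ?_⟩, hup, h4⟩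
    · rw [← h1, nf, nf]
      ring
    · rw [h3, hjI, map_zero, zero_mul, zero_mul, add_zero, add_zero]

/-- **The field generated over `k(I)`**, in the letters of the good elements: separability. -/
theorem exists_MF2' {m : ℕ} (h2 : (2 : k) = 0) (hSC : SetG L K' C)
    (h : IsCent2 k K A L K' C t a T jC) (hdC : finrank K' C = m ^ 2) (hts : star t = t) {ν : k}
    (hϰ : ϰ + star ϰ = 1) (hν : ϰ * star ϰ = algebraMap k K ν) {B : Type} [Field B] [GFF B]
    [Algebra k B] [Algebra B K'] {I : B}
    (hBk : ∀ c : k, algebraMap B K' (algebraMap k B c) = algebraMap K K' (algebraMap k K c))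
    (hBI : algebraMap B K' I = algebraMap K K' ϰ + algebraMap L K' T)
    (hB : ∀ b : B, ∃ p u : k, b = algebraMap k B p + algebraMap k B u * I) {y : A}
    (hyu : IsUnit y) (hys : star y = y) (hyt : y * t = (t + 1) * y) {γ : C}
    (hγ : jC γ = y * y) (hdj : (minpoly k (y * y)).natDegree = m)
    (hsep : (minpoly k (y * y)).Separable) :
    ∃ (F : Type) (_ : Field F) (_ : GFF F) (_ : Algebra k F) (_ : Algebra.IsAlgebraic k F)
      (ι : F →ₐ[k] A) (β : F)
      (M : Type) (_ : Field M) (_ : GFF M) (_ : Algebra B M) (_ : FiniteDimensional B M)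
      (_ : Algebra.IsSeparable B M) (θ : M) (ψ : M →+* C) (τ : M ≃+* M) (φ : F →+* M),
      QFrF2 ι (algebraMap k F (a + ν)) β (algebraMap K A ϰ + t) y ∧
      (∀ x : F, ∃ p : k[X], x = aeval β p) ∧ aeval β (minpoly k (y * y)) = 0 ∧
      (∀ b, ψ (algebraMap B M b) = algebraMap K' C (algebraMap B K' b)) ∧ ψ θ = γ ∧
      Algebra.adjoin B {θ} = ⊤ ∧ finrank B M = m ∧
      minpoly B θ = (minpoly k (y * y)).map (algebraMap k B) ∧
      (∀ y, HasNrd K' m (ψ y) (algebraMap B K' (Algebra.norm B y))) ∧
      (∀ y, ψ (τ y) = star (ψ y)) ∧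
      (∀ c : k, φ (algebraMap k F c) = algebraMap B M (algebraMap k B c)) ∧
      (∀ x : F, jC (ψ (φ x)) = ι x) ∧ φ β = θ ∧
      ∀ u : M, u * τ u = 1 → ∃ p0 p1 : F,
        QEltF2 ι (algebraMap k F (a + ν)) β (algebraMap K A ϰ + t) y p0 p1 0 0 (jC (ψ u)) ∧
        u = φ p0 + φ p1 * algebraMap B M I ∧ φ p1 = u + u⁻¹ := by
  have hnt : Nontrivial A := ⟨jC 0, jC 1, fun e => zero_ne_one (h.inj e)⟩
  have hγ0 : γ ≠ 0 := by
    rintro rfl
    rw [map_zero] at hγ
    exact (hyu.mul hyu).ne_zero hγ.symm
  obtain ⟨hik, hmg⟩ := minpoly_gamma2 hSC h hys hyt hγ0 hγ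
  have hdm : (minpoly K' γ).natDegree = m := by rw [hmg, natDegree_map, hdj]
  obtain ⟨F, _, _, _, _, ι, β, M, _, _, _, _, θ, ψ, τ, φ, fr, hgenF, hψ, hθ, hgen, hi, hd, hmp,
    hnrd, hτ, hφk, hφ, hφβ, hu⟩ := exists_MF2 h2 hSC h hdC hts hϰ hν hBk hBI hB hys hyt hγ0
      hdm hγ
  obtain ⟨b, -⟩ := exists_powBasis hi hgen
  have hfin : FiniteDimensional B M := Module.Finite.of_basis b
  have hmB : minpoly B θ = (minpoly k (y * y)).map (algebraMap k B) := by
    apply Polynomial.map_injective _ (algebraMap B K').injective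
    rw [hmp, hmg, Polynomial.map_map]
    congr 1
    exact RingHom.ext fun c => (hBk c).symm
  have hθs : IsSeparable B θ := by
    change (minpoly B θ).Separable
    rw [hmB]
    exact hsep.map
  have hsepM : Algebra.IsSeparable B M := by
    refine ⟨fun x => ?_⟩
    have h1 : Algebra.adjoin B {θ} ≤ (separableClosure B M).toSubalgebra := by
      rw [Algebra.adjoin_le_iff, Set.singleton_subset_iff]
      exact mem_separableClosure_iff.mpr hθs
    obtain ⟨p, rfl⟩ := hgen x
    exact mem_separableClosure_iff.mp (h1 (Polynomial.aeval_mem_adjoin_singleton B θ))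
  refine ⟨F, inferInstance, inferInstance, inferInstance, inferInstance, ι, β, M, inferInstance,
    inferInstance, inferInstance, hfin, hsepM, θ, ψ, τ, φ, fr, hgenF, ?_, hψ, hθ, ?_, ?_, hmB,
    hnrd, hτ, hφk, hφ, hφβ, hu⟩
  · have h1 : ι (aeval β (minpoly k (y * y))) = 0 := by
      rw [← aeval_algHom_apply, ← fr.jj, minpoly.aeval]
    exact (ι : F →+* A).injective (h1.trans (map_zero (ι : F →+* A)).symm)
  · rw [eq_top_iff]
    rintro x -
    obtain ⟨p, rfl⟩ := hgen x
    exact Polynomial.aeval_mem_adjoin_singleton B θ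
  · rw [finrank_eq_card_basis b, Fintype.card_fin, hd]

end Vale.Agent.P011.H424.Dbl
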