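import Mathlib

/-!
The field generated by a symmetric element over a quadratic extension: the reduced norm, the
involution, and the elements of norm one. Pure algebra over arbitrary fields.
-/

open Module Polynomial

set_option linter.unusedSectionVars false

namespace Vale.Agent.P011.H424.Dbl

section general

/-- Lifting of a homomorphism through an injective homomorphism. -/
theorem lift_hom {A M R : Type*} [Ring A] [Ring M] [Ring R] (q : M →+* R)
    (hq : Function.Injective q) (p : A →+* R) (hr : ∀ a, ∃ b, q b = p a) :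
    ∃ σ : A →+* M, ∀ a, q (σ a) = p a := by
  choose r hr using hr
  exact ⟨{ toFun := r
           map_one' := hq (by rw [hr, map_one, map_one])
           map_mul' := fun x y => hq (by rw [hr, map_mul, map_mul, hr, hr])
           map_zero' := hq (by rw [hr, map_zero, map_zero])
           map_add' := fun x y => hq (by rw [hr, map_add, map_add, hr, hr]) }, hr⟩

/-- The field generated by an element of a division algebra. -/
theorem exists_genF {F C : Type} [Field F] [DivisionRing C] [Algebra F C]
    [FiniteDimensional F C] (γ : C) :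
    ∃ (E : Type) (_ : Field E) (_ : Algebra F E) (j : E →ₐ[F] C) (g : E),
      j g = γ ∧ ∀ x : E, ∃ p : F[X], x = aeval g p := by
  have _ : IsMulCommutative (Algebra.adjoin F {γ}) := by
    apply IsMulCommutative.of_setLike_mul_comm
    intro a ha b hb
    rw [Algebra.adjoin_singleton_eq_range_aeval] at ha hb
    obtain ⟨p, rfl⟩ := ha
    obtain ⟨q, rfl⟩ := hb
    change aeval γ p * aeval γ q = aeval γ q * aeval γ p
    rw [← map_mul, mul_comm, map_mul]
  let _ : Field (Algebra.adjoin F {γ}) := fieldOfFiniteDimensional F _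
  refine ⟨Algebra.adjoin F {γ}, inferInstance, inferInstance,
    (Algebra.adjoin F {γ}).val, ⟨γ, Algebra.self_mem_adjoin_singleton F γ⟩, rfl, fun x => ?_⟩
  have hx : (x : C) ∈ (aeval γ : F[X] →ₐ[F] C).range := by
    rw [← Algebra.adjoin_singleton_eq_range_aeval]
    exact x.2
  obtain ⟨p, hp⟩ := hx
  refine ⟨p, Subtype.ext ?_⟩
  have h2 : (Algebra.adjoin F {γ}).val (aeval ⟨γ, Algebra.self_mem_adjoin_singleton F γ⟩ p) =
      aeval γ p := by
    rw [← aeval_algHom_apply]
    rfl
  exact hp.symm.trans h2.symm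

/-- The basis of the powers of a generator. -/
theorem exists_powBasis {F E : Type*} [Field F] [Field E] [Algebra F E] {g : E}
    (hg : IsIntegral F g) (hgen : ∀ x : E, ∃ p : F[X], x = aeval g p) :
    ∃ b : Basis (Fin (minpoly F g).natDegree) F E, ∀ i, b i = g ^ (i : ℕ) := by
  refine ⟨Basis.mk (linearIndependent_pow g) ?_, fun i => Basis.mk_apply _ _ i⟩
  rintro x -
  obtain ⟨p, hp⟩ := hgen x
  exact hg.mem_span_pow ⟨p, hp⟩

/-- The norm and base change, by means of two bases. -/
theorem norm_of_basis {B K M E : Type*} [Field B] [Field K] [Field M] [Field E] [Algebra B K]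
    [Algebra B M] [Algebra K E] (μ : M →+* E)
    (hμ : ∀ c, μ (algebraMap B M c) = algebraMap K E (algebraMap B K c)) {ι : Type*} [Fintype ι]
    [DecidableEq ι] (b : Basis ι B M) (b' : Basis ι K E) (hb : ∀ i, μ (b i) = b' i) (y : M) :
    Algebra.norm K (μ y) = algebraMap B K (Algebra.norm B y) := by
  have hrep : ∀ (z : M) (i : ι), b'.repr (μ z) i = algebraMap B K (b.repr z i) := by
    intro z i
    have h1 : μ z = ∑ l, algebraMap B K (b.repr z l) • b' l := by
      conv_lhs => rw [← b.sum_repr z]
      rw [map_sum]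
      refine Finset.sum_congr rfl fun l _ => ?_
      rw [Algebra.smul_def, Algebra.smul_def, map_mul, hμ, hb]
    rw [h1, map_sum, Finsupp.finsetSum_apply, Finset.sum_eq_single i]
    · rw [map_smul, Basis.repr_self, Finsupp.smul_apply, Finsupp.single_eq_same, smul_eq_mul,
        mul_one]
    · intro l _ hl
      rw [map_smul, Basis.repr_self, Finsupp.smul_apply, Finsupp.single_eq_of_ne (Ne.symm hl),
        smul_zero]
    · intro h
      exact absurd (Finset.mem_univ i) h
  rw [Algebra.norm_eq_matrix_det b' (μ y), Algebra.norm_eq_matrix_det b y, RingHom.map_det]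
  congr 1
  ext i l
  rw [RingHom.mapMatrix_apply, Matrix.map_apply, Algebra.leftMulMatrix_eq_repr_mul,
    Algebra.leftMulMatrix_eq_repr_mul, ← hb, ← map_mul, hrep]

end general

section coeff

variable {K' C D : Type*} [Field K'] [StarRing K'] [DivisionRing C] [StarRing C] [Algebra K' C]
  [FiniteDimensional K' C] [DivisionRing D] (jC : C →+* D) {γ : C} {j : D}

/-- The coefficients of the minimal polynomial of a symmetric element are symmetric. -/
theorem minpoly_star (hsa : ∀ c : K', star (algebraMap K' C c) = algebraMap K' C (star c))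
    (hγ : star γ = γ) (i : ℕ) :
    star ((minpoly K' γ).coeff i) = (minpoly K' γ).coeff i := by
  have hint : IsIntegral K' γ := Algebra.IsIntegral.isIntegral γ
  obtain ⟨P, hP⟩ : ∃ P, P = minpoly K' γ := ⟨_, rfl⟩
  have hPm : P.Monic := hP ▸ minpoly.monic hint
  have h1 : aeval γ (P.map (starRingEnd K')) = 0 := by
    have h2 : aeval γ P = 0 := hP ▸ minpoly.aeval K' γ
    have h3 : ∀ Q : K'[X], aeval γ (Q.map (starRingEnd K')) = star (aeval γ Q) := by
      intro Q
      induction Q using Polynomial.induction_on' with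
      | add p q hp hq => rw [Polynomial.map_add, map_add, map_add, star_add, hp, hq]
      | monomial n c =>
        rw [map_monomial, aeval_monomial, aeval_monomial, star_mul, star_pow, hγ, hsa,
          starRingEnd_apply]
        exact Algebra.commutes _ _
    rw [h3, h2, star_zero]
  have h4 : P ∣ P.map (starRingEnd K') := by
    rw [hP] at h1 ⊢
    exact minpoly.dvd K' γ h1
  have h5 : P = P.map (starRingEnd K') :=
    (eq_of_monic_of_dvd_of_natDegree_le hPm (hPm.map _) h4 (by rw [hPm.natDegree_map])).symm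
  have h6 := congrArg (fun Q => Q.coeff i) h5
  rw [← hP]
  change P.coeff i = (P.map (starRingEnd K')).coeff i at h6
  rw [coeff_map, starRingEnd_apply] at h6
  exact h6.symm

/-- The coefficients of the minimal polynomial of an element which commutes with `j` are fixed by
the conjugation by `j`. -/
theorem minpoly_conj (hinj : Function.Injective jC) (hj0 : j ≠ 0) (τ : K' →+* K')
    (hτ : ∀ c, jC (algebraMap K' C (τ c)) * j = j * jC (algebraMap K' C c))
    (hγ : jC γ * j = j * jC γ) (i : ℕ) :
    τ ((minpoly K' γ).coeff i) = (minpoly K' γ).coeff i := by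
  have hint : IsIntegral K' γ := Algebra.IsIntegral.isIntegral γ
  obtain ⟨P, hP⟩ : ∃ P, P = minpoly K' γ := ⟨_, rfl⟩
  have hPm : P.Monic := hP ▸ minpoly.monic hint
  have h1 : aeval γ (P.map τ) = 0 := by
    have h2 : aeval γ P = 0 := hP ▸ minpoly.aeval K' γ
    have h3 : ∀ Q : K'[X], jC (aeval γ (Q.map τ)) * j = j * jC (aeval γ Q) := by
      intro Q
      induction Q using Polynomial.induction_on' with
      | add p q hp hq =>
        rw [Polynomial.map_add, map_add, map_add, map_add, map_add, add_mul, mul_add, hp, hq]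
      | monomial n c =>
        have h4 : jC (γ ^ n) * j = j * jC (γ ^ n) := by
          rw [map_pow]
          exact (Commute.pow_left hγ n : _)
        rw [map_monomial, aeval_monomial, aeval_monomial, map_mul, map_mul, mul_assoc, h4,
          ← mul_assoc, hτ, mul_assoc]
    have h4 := h3 P
    rw [h2, map_zero, mul_zero, mul_eq_zero, or_iff_left hj0] at h4
    exact hinj (by rw [h4, map_zero])
  have h4 : P ∣ P.map τ := by
    rw [hP] at h1 ⊢
    exact minpoly.dvd K' γ h1
  have h5 : P = P.map τ :=
    (eq_of_monic_of_dvd_of_natDegree_le hPm (hPm.map _) h4 (by rw [hPm.natDegree_map])).symm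
  have h6 := congrArg (fun Q => Q.coeff i) h5
  rw [← hP]
  change P.coeff i = (P.map τ).coeff i at h6
  rw [coeff_map] at h6
  exact h6.symm

end coeff

section norm

/-- The degree of a generator over a smaller field. -/
theorem degree_eq {k B K' C M : Type*} [Field k] [Field B] [Field K'] [DivisionRing C]
    [Algebra k B] [Algebra B K'] [Algebra K' C] [Field M] [Algebra B M] {κ : k →+* K'}
    (hBk : ∀ c : k, algebraMap B K' (algebraMap k B c) = κ c) {γ : C} (hint : IsIntegral K' γ)
    {θ : M} (ψ : M →+* C)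
    (hψ : ∀ b, ψ (algebraMap B M b) = algebraMap K' C (algebraMap B K' b)) (hθ : ψ θ = γ)
    (hco : ∀ i, ∃ e : k, (minpoly K' γ).coeff i = κ e) :
    IsIntegral B θ ∧ (minpoly B θ).natDegree = (minpoly K' γ).natDegree ∧
      (minpoly B θ).map (algebraMap B K') = minpoly K' γ := by
  have hev : ∀ Q : B[X], ψ (aeval θ Q) = aeval γ (Q.map (algebraMap B K')) := by
    intro Q
    induction Q using Polynomial.induction_on' with
    | add p q hp hq => rw [Polynomial.map_add, map_add, map_add, map_add, hp, hq]
    | monomial n c =>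
      rw [map_monomial, aeval_monomial, aeval_monomial, map_mul, hψ, map_pow, hθ]
  obtain ⟨P, hP⟩ : ∃ P : B[X], P.map (algebraMap B K') = minpoly K' γ := by
    rw [← mem_lifts, lifts_iff_coeff_lifts]
    intro i
    obtain ⟨e, he⟩ := hco i
    exact ⟨algebraMap k B e, by rw [hBk, he]⟩
  have hPm : P.Monic := by
    have h1 := minpoly.monic hint
    rw [← hP] at h1
    exact monic_of_injective (algebraMap B K').injective h1
  have hP0 : aeval θ P = 0 := by
    apply ψ.injective
    rw [hev, hP, minpoly.aeval, map_zero]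
  have hi : IsIntegral B θ := ⟨P, hPm, hP0⟩
  have h1 : minpoly B θ ∣ P := minpoly.dvd B θ hP0
  have h2 : minpoly K' γ ∣ (minpoly B θ).map (algebraMap B K') := by
    refine minpoly.dvd K' γ ?_
    rw [← hev, minpoly.aeval, map_zero]
  have h3 : (minpoly B θ).map (algebraMap B K') ∣ minpoly K' γ := by
    rw [← hP]
    exact Polynomial.map_dvd _ h1
  have h4 : (minpoly B θ).map (algebraMap B K') = minpoly K' γ :=
    eq_of_monic_of_associated ((minpoly.monic hi).map _) (minpoly.monic hint)
      (associated_of_dvd_dvd h3 h2)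
  refine ⟨hi, ?_, h4⟩
  rw [← h4, natDegree_map]

/-- The norm on the smaller field. -/
theorem norm_eq {B K' C M E : Type*} [Field B] [Field K'] [DivisionRing C]
    [Algebra B K'] [Algebra K' C] [Field M] [Algebra B M] {γ : C}
    {θ : M} (ψ : M →+* C)
    (hψ : ∀ b, ψ (algebraMap B M b) = algebraMap K' C (algebraMap B K' b)) (hθ : ψ θ = γ)
    (hgen : ∀ x : M, ∃ p : B[X], x = aeval θ p) (hi : IsIntegral B θ)
    (hd : (minpoly B θ).natDegree = (minpoly K' γ).natDegree)
    [Field E] [Algebra K' E] (φ : E →ₐ[K'] C) {g : E} (hg : φ g = γ) (hig : IsIntegral K' g)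
    (hgenE : ∀ x : E, ∃ p : K'[X], x = aeval g p) (y : M) :
    ∃ z : E, φ z = ψ y ∧ Algebra.norm K' z = algebraMap B K' (Algebra.norm B y) := by
  obtain ⟨μ, hμ⟩ := lift_hom (φ : E →+* C) φ.injective ψ (by
    intro x
    obtain ⟨p, rfl⟩ := hgen x
    refine ⟨aeval g (p.map (algebraMap B K')), ?_⟩
    change φ _ = _
    rw [← aeval_algHom_apply, hg]
    induction p using Polynomial.induction_on' with
    | add p q hp hq => rw [Polynomial.map_add, map_add, map_add, map_add, hp, hq]
    | monomial n c =>
      rw [map_monomial, aeval_monomial, aeval_monomial, map_mul, hψ, map_pow, hθ])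
  have hμ' : ∀ x, φ (μ x) = ψ x := hμ
  obtain ⟨b, hb⟩ := exists_powBasis hi hgen
  obtain ⟨b', hb'⟩ := exists_powBasis hig hgenE
  have hmg : (minpoly K' g).natDegree = (minpoly B θ).natDegree := by
    rw [hd, ← hg, minpoly.algHom_eq φ φ.injective]
  refine ⟨μ y, hμ' y, ?_⟩
  refine norm_of_basis μ (fun c => ?_) b (b'.reindex (finCongr hmg)) (fun i => ?_) y
  · have h1 : φ (μ (algebraMap B M c)) = φ (algebraMap K' E (algebraMap B K' c)) := by
      rw [hμ', hψ, AlgHom.commutes]
    exact φ.injective h1
  · have h1 : φ (μ (b i)) = φ ((b'.reindex (finCongr hmg)) i) := by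
      rw [hμ', hb, Basis.reindex_apply, hb', map_pow, map_pow, hθ, hg]
      rfl
    exact φ.injective h1

end norm

section tau

/-- The involution on a field embedded in an algebra with involution. -/
theorem exists_tau {B C M : Type*} [Field B] [DivisionRing C] [StarRing C] [Field M]
    [Algebra B M] {θ : M} (ψ : M →+* C)
    (hBs : ∀ b : B, ∃ b' : B, star (ψ (algebraMap B M b)) = ψ (algebraMap B M b'))
    (hγ : star (ψ θ) = ψ θ) (hgen : ∀ x : M, ∃ p : B[X], x = aeval θ p) :
    ∃ τ : M ≃+* M, ∀ y, ψ (τ y) = star (ψ y) := by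
  have hrange : ∀ x : M, ∃ y, ψ y = star (ψ x) := by
    intro x
    obtain ⟨p, rfl⟩ := hgen x
    induction p using Polynomial.induction_on' with
    | add p q hp hq =>
      obtain ⟨y, hy⟩ := hp
      obtain ⟨z, hz⟩ := hq
      exact ⟨y + z, by rw [map_add, map_add, map_add, star_add, hy, hz]⟩
    | monomial n c =>
      obtain ⟨b', hb'⟩ := hBs c
      refine ⟨algebraMap B M b' * θ ^ n, ?_⟩
      rw [aeval_monomial, map_mul, map_mul, star_mul, hb', map_pow, star_pow, hγ, ← map_pow,
        ← map_mul, ← map_mul, mul_comm]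
  let p : M →+* C :=
    { toFun := fun x => star (ψ x)
      map_one' := by rw [map_one, star_one]
      map_mul' := fun x y => by rw [mul_comm, map_mul, star_mul]
      map_zero' := by rw [map_zero, star_zero]
      map_add' := fun x y => by rw [map_add, star_add] }
  obtain ⟨τ, hτ⟩ := lift_hom ψ ψ.injective p hrange
  have hτ' : ∀ y, ψ (τ y) = star (ψ y) := hτ
  have h2 : ∀ y, τ (τ y) = y := fun y => ψ.injective (by rw [hτ', hτ', star_star])
  exact ⟨RingEquiv.ofRingHom τ τ (RingHom.ext h2) (RingHom.ext h2), hτ'⟩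

end tau

section rep

variable {k B C M F D : Type*} [Field k] [Field B] [Algebra k B] [DivisionRing C] [StarRing C]
  [Field M] [Algebra B M] [Field F] [Algebra k F] [DivisionRing D] [StarRing D] [Algebra k D]
  {θ : M} {β : F} (ψ : M →+* C) (jC : C →+* D) (ι : F →ₐ[k] D)

/-- The embedding of the symmetric subfield. -/
theorem exists_phi (hjk : ∀ c : k, jC (ψ (algebraMap B M (algebraMap k B c))) = algebraMap k D c)
    (hθ : jC (ψ θ) = ι β) (hgenF : ∀ x : F, ∃ p : k[X], x = aeval β p) :
    ∃ φ : F →+* M, (∀ x, jC (ψ (φ x)) = ι x) ∧ φ β = θ ∧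
      ∀ c : k, φ (algebraMap k F c) = algebraMap B M (algebraMap k B c) := by
  have hinj : Function.Injective (jC.comp ψ) := RingHom.injective _
  obtain ⟨φ, hφ⟩ := lift_hom (jC.comp ψ) hinj (ι : F →+* D) (by
    intro x
    obtain ⟨p, rfl⟩ := hgenF x
    refine ⟨aeval θ (p.map (algebraMap k B)), ?_⟩
    change jC (ψ _) = ι _
    induction p using Polynomial.induction_on' with
    | add p q hp hq => simp only [Polynomial.map_add, map_add, hp, hq]
    | monomial n c =>
      rw [map_monomial, aeval_monomial, aeval_monomial, map_mul, map_mul, hjk, map_pow, map_pow,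
        hθ, map_mul, map_pow, AlgHom.commutes])
  have hφ' : ∀ x, jC (ψ (φ x)) = ι x := hφ
  refine ⟨φ, hφ', hinj ?_, fun c => hinj ?_⟩
  · change jC (ψ _) = jC (ψ _)
    rw [hφ', hθ]
  · change jC (ψ _) = jC (ψ _)
    rw [hφ', hjk, AlgHom.commutes]

/-- The elements of the field in coordinates. -/
theorem exists_rep {I : B} (hB : ∀ b : B, ∃ p u : k, b = algebraMap k B p + algebraMap k B u * I)
    {φ : F →+* M} (hφβ : φ β = θ)
    (hφk : ∀ c : k, φ (algebraMap k F c) = algebraMap B M (algebraMap k B c))
    (hgen : ∀ x : M, ∃ p : B[X], x = aeval θ p) (u : M) :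
    ∃ p0 p1 : F, u = φ p0 + φ p1 * algebraMap B M I := by
  obtain ⟨p, rfl⟩ := hgen u
  induction p using Polynomial.induction_on' with
  | add p q hp hq =>
    obtain ⟨x0, x1, hx⟩ := hp
    obtain ⟨y0, y1, hy⟩ := hq
    refine ⟨x0 + y0, x1 + y1, ?_⟩
    rw [map_add, hx, hy, map_add, map_add]
    ring
  | monomial n c =>
    obtain ⟨c0, c1, hc⟩ := hB c
    refine ⟨algebraMap k F c0 * β ^ n, algebraMap k F c1 * β ^ n, ?_⟩
    rw [aeval_monomial, hc, map_add, map_mul, map_mul, map_mul, map_pow, hφβ, hφk, hφk]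
    ring

/-- The unitary elements of the field. -/
theorem unitary_rep {I : B} {δ : k} (hI : I * I = algebraMap k B δ)
    {φ : F →+* M} (hφ : ∀ x, jC (ψ (φ x)) = ι x)
    (hφk : ∀ c : k, φ (algebraMap k F c) = algebraMap B M (algebraMap k B c))
    (hsym : ∀ x, star (ι x) = ι x) (hstar : ∀ x, jC (star x) = star (jC x)) {τ : M →+* M}
    (hτ : ∀ y, ψ (τ y) = star (ψ y)) (hτI : τ (algebraMap B M I) = -algebraMap B M I)
    {u : M} {p0 p1 : F} (hu : u = φ p0 + φ p1 * algebraMap B M I) (h1 : u * τ u = 1) :
    p0 ^ 2 - algebraMap k F δ * p1 ^ 2 = 1 ∧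
      jC (ψ u) = ι p0 + ι p1 * jC (ψ (algebraMap B M I)) ∧
      φ (2 - 2 * p0) = (1 - u) * (1 - u⁻¹) := by
  have hinj : Function.Injective (jC.comp ψ) := RingHom.injective _
  have hτφ : ∀ x, τ (φ x) = φ x := fun x => hinj (by
    change jC (ψ _) = jC (ψ _)
    rw [hτ, hstar, hφ, hsym])
  have hτu : τ u = φ p0 - φ p1 * algebraMap B M I := by
    rw [hu, map_add, map_mul, hτφ, hτφ, hτI]
    ring
  have hu0 : u ≠ 0 := left_ne_zero_of_mul_eq_one h1
  have hinv : u⁻¹ = τ u := (eq_inv_of_mul_eq_one_right h1).symm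
  refine ⟨?_, ?_, ?_⟩
  · apply φ.injective
    rw [map_one, ← h1, hτu, hu, map_sub, map_mul, map_pow, map_pow, hφk, ← hI, map_mul]
    ring
  · rw [hu, map_add, map_add, map_mul, map_mul, hφ, hφ]
  · rw [hinv]
    have h2 : (1 - u) * (1 - τ u) = 1 - u - τ u + u * τ u := by ring
    rw [h2, h1, hτu, map_sub, map_mul, map_ofNat]
    nth_rw 1 [hu]
    ring

end rep

end Vale.Agent.P011.H424.Dbl
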