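import Vale.Agent.P011.H424.Dbl.MFCore

/-!
The field generated by a symmetric element over a quadratic extension, for a centralizer in a ring
with involution. The quadratic extension is generated by `I` with `I * I = I + ν` and the
involution maps `I` to `I + 1` (characteristic two). Pure algebra.
-/

open Module Polynomial

set_option linter.unusedSectionVars false

namespace Vale.Agent.P011.H424.Dbl

section coeff

variable {K' C A : Type*} [Field K'] [DivisionRing C] [Algebra K' C]
  [FiniteDimensional K' C] [Ring A] (jC : C →+* A) {γ : C} {j : A}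

/-- The coefficients of the minimal polynomial of an element which commutes with `j` are fixed by
the conjugation by `j`. -/
theorem minpoly_conjR (hinj : Function.Injective jC) (hj0 : ∀ x : A, x * j = 0 → x = 0)
    (τ : K' →+* K')
    (hτ : ∀ c, jC (algebraMap K' C (τ c)) * j = j * jC (algebraMap K' C c))
    (hγ : jC γ * j = j * jC γ) (i : ℕ) :
    τ ((minpoly K' γ).coeff i) = (minpoly K' γ).coeff i := by
  have hint : IsIntegral K' γ := Algebra.IsIntegral.isIntegral γ
  obtain ⟨P, hP⟩ : ∃ P, P = minpoly K' γ := ⟨_, rfl⟩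
  have hPm : P.Monic := hP ▸ minpoly.monic hint
  have h1 : aeval γ (P.map τ) = 0 := by
    have h2 : aeval γ P = 0 := hP ▸ minpoly.aeval K' γ
    have h3 : ∀ Q : K'[X], jC (aeval γ (Q.map τ)) * j = j * jC (aeval γ Q) := by
      intro Q
      induction Q using Polynomial.induction_on' with
      | add p q hp hq =>
        rw [Polynomial.map_add, map_add, map_add, map_add, map_add, add_mul, mul_add, hp, hq]
      | monomial n c =>
        have h4 : jC (γ ^ n) * j = j * jC (γ ^ n) := by
          rw [map_pow]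
          exact (Commute.pow_left hγ n : _)
        rw [map_monomial, aeval_monomial, aeval_monomial, map_mul, map_mul, mul_assoc, h4,
          ← mul_assoc, hτ, mul_assoc]
    have h4 := h3 P
    rw [h2, map_zero, mul_zero] at h4
    exact hinj (by rw [hj0 _ h4, map_zero])
  have h4 : P ∣ P.map τ := by
    rw [hP] at h1 ⊢
    exact minpoly.dvd K' γ h1
  have h5 : P = P.map τ :=
    (eq_of_monic_of_dvd_of_natDegree_le hPm (hPm.map _) h4 (by rw [hPm.natDegree_map])).symm
  have h6 := congrArg (fun Q => Q.coeff i) h5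
  rw [← hP]
  change P.coeff i = (P.map τ).coeff i at h6
  rw [coeff_map] at h6
  exact h6.symm

end coeff

section rep

variable {k B C M F A : Type*} [Field k] [Field B] [Algebra k B] [DivisionRing C] [StarRing C]
  [Field M] [Algebra B M] [Field F] [Algebra k F] [Ring A] [Nontrivial A] [StarRing A]
  [Algebra k A] {θ : M} {β : F} (ψ : M →+* C) (jC : C →+* A) (ι : F →ₐ[k] A)

/-- The embedding of the symmetric subfield. -/
theorem exists_phiR (hjk : ∀ c : k, jC (ψ (algebraMap B M (algebraMap k B c))) = algebraMap k A c)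
    (hθ : jC (ψ θ) = ι β) (hgenF : ∀ x : F, ∃ p : k[X], x = aeval β p) :
    ∃ φ : F →+* M, (∀ x, jC (ψ (φ x)) = ι x) ∧ φ β = θ ∧
      ∀ c : k, φ (algebraMap k F c) = algebraMap B M (algebraMap k B c) := by
  have hinj : Function.Injective (jC.comp ψ) := RingHom.injective _
  obtain ⟨φ, hφ⟩ := lift_hom (jC.comp ψ) hinj (ι : F →+* A) (by
    intro x
    obtain ⟨p, rfl⟩ := hgenF x
    refine ⟨aeval θ (p.map (algebraMap k B)), ?_⟩
    change jC (ψ _) = ι _
    induction p using Polynomial.induction_on' with
    | add p q hp hq => simp only [Polynomial.map_add, map_add, hp, hq]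
    | monomial n c =>
      rw [map_monomial, aeval_monomial, aeval_monomial, map_mul, map_mul, hjk, map_pow, map_pow,
        hθ, map_mul, map_pow, AlgHom.commutes])
  have hφ' : ∀ x, jC (ψ (φ x)) = ι x := hφ
  refine ⟨φ, hφ', hinj ?_, fun c => hinj ?_⟩
  · change jC (ψ _) = jC (ψ _)
    rw [hφ', hθ]
  · change jC (ψ _) = jC (ψ _)
    rw [hφ', hjk, AlgHom.commutes]

/-- The unitary elements of the field, characteristic two. -/
theorem unitary_rep2 (h2 : (2 : F) = 0) {I : B} {ν : k} (hI : I * I = I + algebraMap k B ν)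
    {φ : F →+* M} (hφ : ∀ x, jC (ψ (φ x)) = ι x)
    (hφk : ∀ c : k, φ (algebraMap k F c) = algebraMap B M (algebraMap k B c))
    (hsym : ∀ x, star (ι x) = ι x) (hstar : ∀ x, jC (star x) = star (jC x)) {τ : M →+* M}
    (hτ : ∀ y, ψ (τ y) = star (ψ y)) (hτI : τ (algebraMap B M I) = algebraMap B M I + 1)
    {u : M} {p0 p1 : F} (hu : u = φ p0 + φ p1 * algebraMap B M I) (h1 : u * τ u = 1) :
    p0 ^ 2 + p0 * p1 + algebraMap k F ν * p1 ^ 2 = 1 ∧
      jC (ψ u) = ι p0 + ι p1 * jC (ψ (algebraMap B M I)) ∧
      φ p1 = u + u⁻¹ := by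
  have hinj : Function.Injective (jC.comp ψ) := RingHom.injective _
  have h2M : (2 : M) = 0 := by rw [← map_ofNat φ 2, h2, map_zero]
  have hτφ : ∀ x, τ (φ x) = φ x := fun x => hinj (by
    change jC (ψ _) = jC (ψ _)
    rw [hτ, hstar, hφ, hsym])
  have hτu : τ u = φ p0 + φ p1 * (algebraMap B M I + 1) := by
    rw [hu, map_add, map_mul, hτφ, hτφ, hτI]
  have hu0 : u ≠ 0 := left_ne_zero_of_mul_eq_one h1
  have hinv : u⁻¹ = τ u := (eq_inv_of_mul_eq_one_right h1).symm
  have hI' : algebraMap B M I * algebraMap B M I =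
      algebraMap B M I + φ (algebraMap k F ν) := by
    rw [hφk, ← map_mul, hI, map_add]
  refine ⟨?_, ?_, ?_⟩
  · apply φ.injective
    rw [map_one, ← h1, hτu, hu]
    simp only [map_add, map_mul, map_pow]
    linear_combination (-φ p1 ^ 2) * hI' - (φ p0 * φ p1 * algebraMap B M I +
      φ p1 ^ 2 * algebraMap B M I) * h2M
  · rw [hu, map_add, map_add, map_mul, map_mul, hφ, hφ]
  · rw [hinv, hτu]
    nth_rw 1 [hu]
    linear_combination (-φ p0 - φ p1 * algebraMap B M I) * h2M

end rep

end Vale.Agent.P011.H424.Dbl
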